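import Vale.Agent.P324.PolyAlg

open Vale.Agent.P324 Vale.Agent.P333 Turing

theorem Vale.Agent.Results.P324.A_poly.result :
    ∀ m : ℕ, ∃ (f : ℕ × List (List ℕ) → Bool)
      (M : TM2ComputableInPolyTime (bPair bNat (bList (bList bNat))) bBool f),
      (∀ k, Finite (M.tm.Γ k)) ∧ ∀ (T : ℕ) (adj : List (List ℕ)),
        (f (T, adj) = true ↔ ∃ τ : Fin adj.length → ℕ, (∀ v, 1 ≤ τ v ∧ τ v ≤ T) ∧
          (∀ s, (Finset.univ.filter fun v => τ v = s).card ≤ m) ∧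
          ∀ u v : Fin adj.length, v.val ∈ adj.get u → τ u < τ v) :=
  poly
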