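import Vale.Agent.P324.Final

open Vale.Agent.P324 Vale.Agent.P333 Turing

theorem Vale.Agent.Results.P324.B_qpoly.result :
    ∃ (M : TM2ComputableAux Bool Bool) (C : ℕ), (∀ k, Finite (M.tm.Γ k)) ∧
    ∀ (m T : ℕ) (adj : List (List ℕ)), ∃ (b : Bool) (t : ℕ),
      (b = true ↔ ∃ τ : Fin adj.length → ℕ, (∀ v, 1 ≤ τ v ∧ τ v ≤ T) ∧
        (∀ s, (Finset.univ.filter fun v => τ v = s).card ≤ m) ∧
        ∀ u v : Fin adj.length, v.val ∈ adj.get u → τ u < τ v) ∧
      t ≤ ((code m T adj).length + 2) ^ C *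
        2 ^ (C * ((m + 1) * (Nat.log 2 adj.length + 1) ^ 3)) ∧
      Nonempty (TM2OutputsInTime M.tm ((code m T adj).map M.inputAlphabet.invFun)
        (some ((bBool b).map M.outputAlphabet.invFun)) t) :=
  qpoly
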